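import Vale.Agent.P150.Gap.BelowHalf
import Vale.Agent.P150.Gap.PastHalfSK
import Vale.Agent.P150.Crit.Main

/-!
The SK heat-bath dynamics mixes in time of order `log n` with a gap of order one on an interval
`(0, b]` with `b > 1/2`; at `β = 1` the gap tends to zero, and for `β < 1` it is at most
`(1 - β)² + o(1)`.
-/

open MeasureTheory Filter
open scoped Topology

namespace Vale.Agent.Results.P150.FastMixingPastHalf

open Vale.Agent.P150 Vale.Agent.P150.Gap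

/-- Fast mixing on `(0, b]` for some `b > 1/2`, the lower bounds for every `β ≥ 0`, and the upper
bound `(1 - β)²` on the gap for `β ∈ (0, 1]`. -/
theorem result :
    (∃ b : ℝ, 1 / 2 < b ∧ ∀ β : ℝ, 0 < β → β ≤ b → ∃ κ A c : ℝ, 0 < κ ∧ 0 < A ∧ 0 < c ∧
      Tendsto (fun n => disorder n {g | ¬
        ((∀ f : Conf n → ℝ, κ * (avg β g (fun x => f x ^ 2) - avg β g f ^ 2) ≤
            -avg β g (fun x => f x * gen β g f x)) ∧
          (∀ lam : ℝ, (∀ f : Conf n → ℝ, lam * (avg β g (fun x => f x ^ 2) - avg β g f ^ 2) ≤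
            -avg β g (fun x => f x * gen β g f x)) → lam ≤ 1) ∧
          (∀ t : ℝ, A * Real.log n ≤ t → ∀ x, tvDist β g t x ≤ 1 / 4) ∧
          ∀ t : ℝ, 0 ≤ t → t ≤ c * Real.log n → ∃ x, 1 / 4 < tvDist β g t x)})
        atTop (𝓝 0)) ∧
    (∀ β : ℝ, 0 ≤ β → ∃ c : ℝ, 0 < c ∧
      Tendsto (fun n => disorder n {g | ¬
        ((∀ lam : ℝ, (∀ f : Conf n → ℝ, lam * (avg β g (fun x => f x ^ 2) - avg β g f ^ 2) ≤
            -avg β g (fun x => f x * gen β g f x)) → lam ≤ 1) ∧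
          ∀ t : ℝ, 0 ≤ t → t ≤ c * Real.log n → ∃ x, 1 / 4 < tvDist β g t x)})
        atTop (𝓝 0)) ∧
    ∀ β : ℝ, 0 < β → β ≤ 1 → ∀ ε : ℝ, 0 < ε →
      Tendsto (fun n => disorder n {g | ¬ ∀ lam : ℝ,
        (∀ f : Conf n → ℝ, lam * (avg β g (fun x => f x ^ 2) - avg β g f ^ 2) ≤
          -avg β g (fun x => f x * gen β g f x)) →
        lam ≤ (1 - β) ^ 2 + ε}) atTop (𝓝 0) := by
  obtain ⟨ε₀, hε₀, hpast⟩ := past_half
  refine ⟨⟨1 / 2 + ε₀, by linarith, fun β h0 h1 => ?_⟩,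
    fun _ hβ => Lower.tendsto_atLeastLogMixing hβ, fun β h0 h1 ε hε => Crit.gap_le_critical β h0 h1 ε hε⟩
  rcases lt_or_ge β (1 / 2) with h | h
  · exact below_half β h0 h
  · exact hpast β h h1

end Vale.Agent.Results.P150.FastMixingPastHalf
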