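import Vale.Agent.P150.Dynamics
import Vale.Agent.P150.LowTemp

/-!
Relaxation and mixing times of order at least `n` in the whole low-temperature phase `β > 1`.
-/

open MeasureTheory Filter
open scoped Topology

namespace Vale.Agent.Results.P150.SlowLowTemperature

open Vale.Agent.P150

/-- For every `β > 1` and every `η > 0` there is `c > 0` such that, for all large `n`, outside a set
of disorders of probability at most `η`, the spectral gap is at most `1/(c n)` and the worst-start
total variation distance exceeds `1/4` at every time up to `c n`. -/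
theorem result (β : ℝ) (hβ : 1 < β) (η : ℝ) (hη : 0 < η) :
    ∃ c : ℝ, 0 < c ∧ ∀ᶠ n in atTop,
      disorder n {g | ¬ SlowMixing β g c} ≤ ENNReal.ofReal η := by
  obtain ⟨C, κ, hC, hκ, -, h⟩ := corr_small_prob_lowTemp hβ
  obtain ⟨d, hd, hd1, hCd⟩ : ∃ d : ℝ, 0 < d ∧ d ≤ 1 ∧ C * d ^ κ ≤ η := by
    have : Tendsto (fun d : ℝ => C * d ^ κ) (𝓝[>] 0) (𝓝 0) := by
      have := ((Real.continuousAt_rpow_const 0 κ (Or.inr hκ.le)).tendsto.mono_left
        (nhdsWithin_le_nhds (s := Set.Ioi 0))).const_mul C
      simpa [Real.zero_rpow hκ.ne'] using this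
    obtain ⟨d, hd, hd0, hd1⟩ := ((this.eventually (eventually_le_nhds hη)).and
      ((eventually_mem_nhdsWithin).and
        (nhdsWithin_le_nhds (eventually_le_nhds (zero_lt_one (α := ℝ)))))).exists
    exact ⟨d, hd0, hd1, hd⟩
  refine ⟨d ^ 2 / 3, by positivity, ?_⟩
  filter_upwards [h d hd hd1, eventually_gt_atTop 0] with n hn hn0
  refine (measure_mono (t := {g | corr β g ≤ d}) fun g hg => ?_).trans ?_
  · show corr β g ≤ d
    by_contra hlt
    exact hg (slowMixing_of_corr β g hn0 hd hd1 (le_of_not_ge hlt))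
  · rw [← ofReal_measureReal]
    exact ENNReal.ofReal_le_ofReal (hn.trans hCd)

end Vale.Agent.Results.P150.SlowLowTemperature
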