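import Vale.Agent.P150.Weak.Main
import Vale.Agent.P150.Weak.Final.Mixing

/-!
For every `β < 1` the SK heat-bath dynamics satisfies a weak Poincaré inequality with a constant
independent of `n`, and so mixes in time independent of `n` from every start of bounded density.
-/

open MeasureTheory Filter
open scoped Topology

namespace Vale.Agent.Results.P150.WeakPoincareBelowOne

open Vale.Agent.P150

/-- A weak Poincaré inequality with an `n`-free constant, and mixing from bounded-density starts
in time independent of `n`, on the whole high-temperature phase. -/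
theorem result (β : ℝ) (hβ : 0 < β) (hβ' : β < 1) :
    ∃ K : ℝ, 0 < K ∧
      (∀ ε : ℝ, 0 < ε →
        Tendsto (fun n : ℕ => disorder n {g | ∃ f : Conf n → ℝ, (∀ x, |f x| ≤ 1) ∧
          K * (-avg β g fun x => f x * gen β g f x) + ε <
            avg β g (fun x => f x ^ 2) - avg β g f ^ 2}) atTop (𝓝 0)) ∧
      ∀ M δ : ℝ, 1 ≤ M → 0 < δ →
        Tendsto (fun n : ℕ => disorder n {g | ∃ ν : Conf n → ℝ, ∃ t : ℝ,
          (∀ x, 0 ≤ ν x ∧ ν x ≤ M * gibbs β g x) ∧ ∑ x, ν x = 1 ∧
          K * Real.log (M / δ) ≤ t ∧ 0 ≤ t ∧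
          δ < (∑ y, |∑ x, ν x * kernelAt β g t x y - gibbs β g y|) / 2}) atTop (𝓝 0) :=
  Weak.weakPoincare_mixing (Weak.weakPoincare hβ hβ')

end Vale.Agent.Results.P150.WeakPoincareBelowOne
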